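import Vale.Agent.P054.T3.H461.All

/-! The higher dimensional distinct distances conjecture: the sharp lower bound in every dimension
at least three. -/

set_option autoImplicit false
set_option linter.all false

open Filter Topology

namespace Vale.Agent.Results.P054.SharpTwoOverD

/-- `g d n`: the least number of distinct distances determined by `n` points of `ℝ^d` -/
noncomputable def g (d n : ℕ) : ℕ :=
  sInf {k : ℕ | ∃ P : Finset (EuclideanSpace ℝ (Fin d)), P.card = n ∧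
    {r : ℝ | ∃ p ∈ P, ∃ q ∈ P, p ≠ q ∧ r = dist p q}.ncard = k}

end Vale.Agent.Results.P054.SharpTwoOverD

open Vale.Agent.Results.P054.SharpTwoOverD in
/-- For every `d ≥ 3` there is `c > 0` such that every set of `n ≥ 2` points of `ℝ^d` determines at
least `c n^(2/d)` distinct distances, and `g_d(n) = Θ(n^(2/d))`. -/
theorem Vale.Agent.Results.P054.SharpTwoOverD.result : ∀ d : ℕ, 3 ≤ d →
    (∃ c : ℝ, 0 < c ∧ ∀ P : Finset (EuclideanSpace ℝ (Fin d)), 2 ≤ P.card →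
      c * (P.card : ℝ) ^ (2 / (d : ℝ)) ≤
        ({r : ℝ | ∃ p ∈ P, ∃ q ∈ P, p ≠ q ∧ r = dist p q}.ncard : ℝ)) ∧
    (∃ c C : ℝ, 0 < c ∧ 0 < C ∧ ∀ n : ℕ, 2 ≤ n →
      c * (n : ℝ) ^ (2 / (d : ℝ)) ≤ ((g d n : ℕ) : ℝ) ∧
      ((g d n : ℕ) : ℝ) ≤ C * (n : ℝ) ^ (2 / (d : ℝ))) ∧
    (fun n : ℕ => ((g d n : ℕ) : ℝ)) =Θ[atTop] fun n : ℕ => (n : ℝ) ^ (2 / (d : ℝ)) :=
  fun d hd => Vale.Agent.P054.T3.H461.txt_full d hd
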